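import Vale.Agent.P154.D8.K0.Charts

set_option maxRecDepth 100000

namespace Vale.Agent.P154.D8.K0

open Cert InT OutT

/-- Certificate tree. -/
def tr01_r1 : OutT :=
(A (B (A (B (A (O (c (c (c l l) (c l (c l l))) (c (c (c l (d l k)) k) k))) (B (A (O (c (c l (c l (c l l))) (c (c (c l (c l k)) k) k))) (B s (O (c (c l (c l (d (c l l) (c l (c (c (c l l) (d l (c l (c l l)))) (d l (c (d l (c (c l l) (c (c l l) (c l l)))) (d (c l l) (c (c (c l (c l l)) (c (c l l) (c l l))) (c (c (c l l) (c l l)) (c (c l l) (c l l)))))))))))) (c (c (c (d (c l (c l l)) (c (d (c l l) (c (c (d l (c (c (c l l) l) (c l l))) (d l k)) k)) (c (d l k) k))) (d (d l k) k)) k) k))))) (A (O (c (c l (c l (c l l))) (c (c (c l l) k) k))) (O (c (c l (c l (c (d l (c l l)) (d l (c (c l l) (c l l)))))) (c (c (c (d (c l l) (c (c l l) (c l k))) (d (c l k) k)) k) k)))))) (A (O (c (c (c l l) (c (c l l) (c l l))) (c (c (c l l) k) k))) (O (c (c (c l l) (c (c l (c l (c l l))) (c (c (c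 l (c l l)) (c (c l l) (d l (c l l)))) (c (d l (c (c l l) (c (c l l) (c l l)))) (d (c l l) (c (c (c l l) (c l l)) (c (c l l) (c (c l l) (c l l))))))))) (c (c (c (c (d (c l l) (c (d (c l l) (c (c l l) (c (c l l) (c l l)))) (d (c l l) k))) (d (c l l) (c (d (c l k) k) k))) (d (c (c (c l l) k) k) k)) k) k))))) (B (A s s) (A (B (A (B (A s s) (O (c (c l (c (c l l) (c (c l (c l l)) (d l (c (c l l) (c l l)))))) (c (c (c (d l (c (c l l) l)) (d (c l k) k)) k) k)))) s) (A (O (c (c l (c (c l l) (c l (c l l)))) (c (c (c (c l l) (c l k)) k) k))) (B s (O (c (c l (c (c l l) (c (c l (c l l)) (d l (c (c l l) (c l l)))))) (c (c (c (d l (c (c l l) l)) (d (c l k) k)) k) k)))))) (B s (A s s))))) (A (B (A (O (c (c (c (c l l) (c l l)) (c (c l l) l)) (c (c (c l l) k) k))) (O (c (c (c l (c l l)) (c (c l l) (c l l))) (c (c (c l (c l k)) k) k)))) (A (O (c (c (c (c l l) (c l l)) (c (c l l) l)) (c (c (c l l) k) k))) (O (c (c (c (c l l) (c l l)) (c (c l l) (c l l)))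 (c (c (c l l) k) k))))) (B (A (B (O (c (c (c l l) (c (c l (c l l)) (c (c l l) (c (c l l) (c l l))))) (c (c (c (c (c (c l l) (c l l)) (d l (c (c l k) k))) (d (c l k) k)) k) k))) (O (c (c (c l l) (c l (c l l))) (c (c (c l (c l k)) k) k)))) (B (A (B s (O (c (c l (c l (c l l))) (c (c (c l (c l k)) k) k)))) s) (A (O (c (c (c l l) (c l l)) (c (c (c l l) k) k))) (O (c (c (c l l) (c l (c l l))) (c (c (c (c l l) (c l k)) k) k)))))) (A (B (O (c (c (c l l) (c l l)) (c (c (c l l) k) k))) (O (c (c (c l l) (c l l)) (c (c (c l l) k) k)))) (B (A (O (c (c (c l l) (c l l)) (c (c l k) k))) (O (c (c (c l l) (c l l)) (c (c l k) k)))) (A (O (c (c (c l l) (c l l)) (c (c l k) k))) (O (c (c (c l l) (c l l)) (c (c l k) k))))))))) (B (A s s) (A (B (A (B s (A (B s (O (c (c l (c l l)) (c (c (c l l) k) k)))) s)) (B s (A s s))) (A (B (A (O (c (c (c l l) (c l l)) (c (c (c l l) k) k))) (O (c (c l (c l l)) (c (c (c l l) k) k)))) (A (O (c (c l (c l l)) (c (c l k) k))) (O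 (c (c l (c l l)) (c (c l k) k))))) (B (A (B s (O (c (c l l) (c (c l k) k)))) (B s (A s s))) (A (B (O (c (c l l) (c (c l k) k))) (O (c (c l l) (c (c l k) k)))) (B (A (O (c (c l l) (c (c l k) k))) (O (c (c l l) (c (c l k) k)))) (A (O (c (c l l) (c l k))) (O (c (c l l) (c l k))))))))) (B (A s s) (A (B (A (B s (A s s)) s) (A (B (A (O (c (c l l) (c (c l k) k))) (O (c (c l l) (c (c l k) k)))) (A (O (c (c l l) (c l k))) (O (c (c l l) (c l k))))) (B (A (O (c (c l l) (c (c l k) k))) s) (A (O (c (c l l) (c l k))) (O (c (c l l) (c l k))))))) (B (A s s) (A (B (A s s) (A (O (c (c l l) (c l k))) (O (c (c l l) (c l k))))) (B (A s s) (A (B (O (c l (c l k))) (O (c l (c l k)))) (B (O (c l (c l k))) (O (c l (c l k)))))))))))))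

theorem s01_r1 : Sound P01 32768 16384 0 32768 :=
  chkOut2_sound P01 KK tr01_r1 32768 16384 0 32768 (by decide +kernel)

end Vale.Agent.P154.D8.K0
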